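import Vale.Agent.P025.R2.H941.OM1

/-!
# P025 G-OMBC, part 4: unramified Kummer covers of the base change come from covers of `K`
(helper941)
-/

universe u

namespace P025H941

open Vale.Agent.P019P IntermediateField

section

variable {C K C' K' : Type u} [Field C] [CharZero C] [Field C'] [Field K] [Field K'] [Algebra C K]
  [Algebra C C'] [Algebra C K'] [Algebra K K'] [Algebra C' K'] [IsScalarTower C K K']
  [IsScalarTower C C' K'] [CFF C K] [CFF C' K']

/-- **covers go down.** `W' = K'(f'^{1/p})` with `div f' ≡ 0 mod p` is the base change of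
`W = K(f^{1/p})` with `div f ≡ 0 mod p`. -/
theorem IsBC.cover_down (hb : IsBC C K C' K') {p : ℕ} (hp : p ≠ 0) {W' : Type u} [Field W']
    [Algebra K' W'] [Algebra C' W'] [IsScalarTower C' K' W'] {f' : K'} (hf' : f' ≠ 0)
    (hd : ∀ P : Plk C' K', (p : ℤ) ∣ ord P f') {β' : W'} (hβ : β' ^ p = algebraMap K' W' f')
    (hgen : IntermediateField.adjoin K' {β'} = ⊤) :
    ∃ (W : Type u) (_ : Field W) (_ : Algebra K W) (_ : Algebra C W) (_ : IsScalarTower C K W)
      (_ : CFF C W) (_ : Algebra C W') (_ : Algebra W W') (_ : IsScalarTower C W W')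
      (_ : IsScalarTower C C' W'), IsBC C W C' W' ∧
      ∃ (f : K) (β : W), f ≠ 0 ∧ (∀ P : Plk C K, (p : ℤ) ∣ ord P f) ∧
        β ^ p = algebraMap K W f ∧ IntermediateField.adjoin K {β} = ⊤ := by
  have hac : IsAlgClosed C := CFF.ac K
  obtain ⟨f, hf0, hfd, g, hg0, hfg⟩ := hb.to816.exists_eq_mul_pow hp hf' hd
  have hg0' : algebraMap K' W' g ≠ 0 := by simpa using hg0
  let _ : Algebra K W' := ((algebraMap K' W').comp (algebraMap K K')).toAlgebra
  have tK : IsScalarTower K K' W' := IsScalarTower.of_algebraMap_eq fun _ => rfl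
  let β : W' := β' / algebraMap K' W' g
  have hβf : β ^ p = algebraMap K W' f := by
    have h1 : algebraMap K' W' f' = algebraMap K W' f * algebraMap K' W' g ^ p := by
      rw [hfg, map_mul, map_pow]; rfl
    rw [div_pow, hβ, h1, mul_div_cancel_right₀ _ (pow_ne_zero _ hg0')]
  have hint : IsIntegral K β := ⟨Polynomial.X ^ p - Polynomial.C f,
    Polynomial.monic_X_pow_sub_C f hp, by simp [hβf]⟩
  let W : IntermediateField K W' := K⟮β⟯
  have hfin : FiniteDimensional K W := adjoin.finiteDimensional hint
  let _ : Algebra C W := ((algebraMap K W).comp (algebraMap C K)).toAlgebra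
  have t1 : IsScalarTower C K W := IsScalarTower.of_algebraMap_eq fun _ => rfl
  let _ : Algebra C W' := ((algebraMap C' W').comp (algebraMap C C')).toAlgebra
  have t2 : IsScalarTower C C' W' := IsScalarTower.of_algebraMap_eq fun _ => rfl
  have hCK' : ∀ c : C, algebraMap C W' c = algebraMap K W' (algebraMap C K c) := by
    intro c
    change algebraMap C' W' (algebraMap C C' c) = algebraMap K' W' (algebraMap K K'
      (algebraMap C K c))
    rw [comm' (K := K) (C' := C'), ← IsScalarTower.algebraMap_apply C' K' W']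
  have t3 : IsScalarTower C W W' := IsScalarTower.of_algebraMap_eq fun c => hCK' c
  have hcff : CFF C W := P025H816.cff_of_finite (K := K)
  have hbW : IsBC C W C' W' := by
    refine hb.ext (L := W) (L' := W') (fun x => rfl) ?_
    rw [eq_top_iff, ← hgen, adjoin_simple_le_iff]
    have h1 : β ∈ IntermediateField.adjoin K' (Set.range (algebraMap W W')) :=
      IntermediateField.subset_adjoin _ _ ⟨⟨β, mem_adjoin_simple_self K β⟩, rfl⟩
    have h2 : algebraMap K' W' g ∈ IntermediateField.adjoin K' (Set.range (algebraMap W W')) :=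
      IntermediateField.algebraMap_mem _ _
    have h3 : β' = β * algebraMap K' W' g := (div_mul_cancel₀ _ hg0').symm
    rw [h3]
    exact mul_mem h1 h2
  refine ⟨W, inferInstance, inferInstance, inferInstance, t1, hcff, inferInstance, inferInstance,
    t3, t2, hbW, f, AdjoinSimple.gen K β, hf0, hfd, ?_, ?_⟩
  · apply (algebraMap W W').injective
    rw [map_pow, AdjoinSimple.algebraMap_gen, hβf]
    rfl
  · have h4 := IntermediateField.adjoin_simple_eq_top_iff_of_isAlgebraic (F := K)
      (x := AdjoinSimple.gen K β) (Algebra.IsAlgebraic.isAlgebraic _)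
    rw [h4]
    exact (adjoin.powerBasis hint).adjoin_gen_eq_top

end

end P025H941
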