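import Vale.Agent.P025.R2.H941.OM3
import Vale.Agent.P025.R2.H941.OM4
import Vale.Agent.P025.R2.H722.CStarSph
import Vale.Agent.P025.R2.H722.CStarAlg
import Vale.Agent.P025.R2.H621.Start

/-!
# P025 G-OMBC, part 5: Theorem 7 over any complete algebraically closed field (helper941)
-/

universe u

namespace P025H941

open Vale.Agent.P019P P025H722 P025H621 P025H725

/-- **Theorem 7**, from the case of spherically complete fields: the Hodge-Tate forms of `K` and
of its unramified Kummer covers of degree `p` do not all vanish. -/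
theorem start_any_of (C : Type u) [NontriviallyNormedField C] [IsUltrametricDist C]
    [IsAlgClosed C] [CharZero C] {p : ℕ} (hp : p.Prime) (hpC : ‖(p : C)‖ < 1)
    (K : Type u) [Field K] [Algebra C K] [CFF C K] (hg : 2 ≤ gen C K)
    (hHT : ∀ (L : Type u) [Field L] [Algebra (CStar C) L] [CFF (CStar C) L],
      HasTheta (CStar C) p L)
    (hS1 : ∀ (L : Type u) [Field L] [Algebra (CStar C) L] [CFF (CStar C) L],
      OmZero (CStar C) p L → NearAll (CStar C) p L)
    (h0 : OmZero C p K)
    (hW : ∀ (W : Type u) [Field W] [Algebra K W] [Algebra C W] [IsScalarTower C K W] [CFF C W],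
      IsCover C p K W → OmZero C p W) : False := by
  have hiso : ∀ c : C, ‖algebraMap C (CStar C) c‖ = ‖c‖ := CStar.norm_algebraMap_eq
  have hpp : ‖(p : CStar C)‖ < 1 := by
    rw [← map_natCast (algebraMap C (CStar C)) p, hiso]; exact hpC
  obtain ⟨K', i1, i2, i3, i4, i5, i6, hb, hcff⟩ := exists_bc_cff C K (CStar C)
  have hg' : 2 ≤ gen (CStar C) K' := by rw [hb.to816.gen_eq]; exact hg
  have hsph : SphComplete (CStar C) := SphComplete.of_balls fun s a r h =>
    CStar.exists_mem_balls a r h
  refine start (CStar C) CStar.exists_norm_eq hsph hp hpp K' hg'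
    (hS1 K' (h0.bc hiso hb hp.ne_zero hpC (hHT K'))) ?_
  intro W' iW aK aC t hcW hcov
  obtain ⟨f', β', hf', hd, hβ, hgen⟩ := hcov
  obtain ⟨W, j1, j2, j3, j4, j5, j6, j7, j8, j9, hbW, hcov⟩ :=
    hb.cover_down hp.ne_zero hf' hd hβ hgen
  exact hS1 W' ((hW W hcov).bc hiso hbW hp.ne_zero hpC (hHT W'))

end P025H941
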