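import Vale.Agent.P025.R2.H941.Bc5
import Vale.Agent.P025.R2.H816.BC3

/-!
# P025 G-BC: the base change is a function field; bridge to `P025H816.IsBC`
-/

set_option linter.unusedSectionVars false

namespace P025H941

open Module TensorProduct IntermediateField Vale.Agent.P019P

universe u v w

section

variable {C K C' K' : Type*} [Field C] [Field K] [Field C'] [Field K'] [Algebra C K]
  [Algebra C C'] [Algebra C K'] [Algebra K K'] [Algebra C' K'] [IsScalarTower C K K']
  [IsScalarTower C C' K']

/-- **the base change of a function field is a function field.** -/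
theorem IsBC.cff [CFF C K] [IsAlgClosed C'] (h : IsBC C K C' K') : CFF C' K' := by
  have : IsAlgClosed C := CFF.ac K
  obtain ⟨x, hx, hfd⟩ := CFF.ex (k := C) (F := K)
  exact ⟨inferInstance, algebraMap K K' x, h.transcendental hx, (h.finrank_eq x).1⟩

/-- bridge to `P025H816.IsBC`. -/
theorem IsBC.to816 (h : IsBC C K C' K') :
    P025H816.IsBC (algebraMap C C') (algebraMap K K') where
  comm a := by rw [← IsScalarTower.algebraMap_apply, ← IsScalarTower.algebraMap_apply]
  gen S h1 h2 := by
    have hs : ∀ a ∈ spn K C' K', a ∈ S := by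
      intro a ha
      induction ha using Submodule.span_induction with
      | mem x hx => obtain ⟨y, rfl⟩ := hx; exact h2 y
      | zero => exact zero_mem _
      | add x y _ _ hx hy => exact add_mem hx hy
      | smul c x _ hx => rw [Algebra.smul_def]; exact mul_mem (h1 c) hx
    rw [eq_top_iff]
    intro z _
    obtain ⟨a, ha, b, hb, -, rfl⟩ := h.gen z
    exact div_mem (hs a ha) (hs b hb)

/-- bridge from `P025H816.IsBC`. -/
theorem isBC_of_816 [CFF C K] [CFF C' K']
    (h : P025H816.IsBC (algebraMap C C') (algebraMap K K')) : IsBC C K C' K' where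
  li hv := h.indep hv
  gen z := by
    let S : Subfield K' :=
      { carrier := {z | Fr K C' K' z}
        mul_mem' := fun hx hy => Fr.mul C hx hy
        one_mem' := Fr.of_mem one_mem_spn
        add_mem' := fun hx hy => Fr.add C hx hy
        zero_mem' := Fr.of_mem (Submodule.zero_mem _)
        neg_mem' := fun {x} hx => by
          have h1 : Fr K C' K' (-1) := Fr.of_mem (Submodule.neg_mem _ one_mem_spn)
          have h2 := Fr.mul C h1 hx
          rwa [neg_one_mul] at h2
        inv_mem' := fun x hx => Fr.inv hx }
    have h1 := h.gen S (fun a => Fr.of_mem (mem_spn_right (K := K) a))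
      (fun z => Fr.of_mem (mem_spn_left z))
    have h2 : z ∈ S := by rw [h1]; trivial
    exact h2

end

/-- **existence of the base change of a function field.** -/
theorem exists_bc_cff (C : Type u) (K : Type v) (C' : Type w) [Field C] [Field K]
    [Algebra C K] [CFF C K] [Field C'] [IsAlgClosed C'] [Algebra C C'] :
    ∃ (K' : Type (max v w)) (_ : Field K') (_ : Algebra C K') (_ : Algebra K K')
      (_ : Algebra C' K') (_ : IsScalarTower C K K') (_ : IsScalarTower C C' K'),
      IsBC C K C' K' ∧ CFF C' K' := by
  have : IsAlgClosed C := CFF.ac K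
  obtain ⟨K', i1, i2, i3, i4, i5, i6, h⟩ := exists_bc C K C'
  exact ⟨K', i1, i2, i3, i4, i5, i6, h, h.cff⟩

/-- **existence of the base change of a finite extension of a function field.** -/
theorem exists_bc_ext_cff {C : Type*} {K : Type*} {C' : Type*} {K' : Type u} [Field C] [Field K]
    [Field C'] [Field K'] [Algebra C K] [Algebra C C'] [Algebra C K'] [Algebra K K']
    [Algebra C' K'] [IsScalarTower C K K'] [IsScalarTower C C' K'] [CFF C K] [IsAlgClosed C']
    (h : IsBC C K C' K') (L : Type*) [Field L] [Algebra C L] [Algebra K L] [IsScalarTower C K L]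
    [FiniteDimensional K L] :
    ∃ (L' : Type u) (_ : Field L') (_ : Algebra C L') (_ : Algebra C' L') (_ : Algebra K L')
      (_ : Algebra L L') (_ : Algebra K' L') (_ : IsScalarTower C L L')
      (_ : IsScalarTower C C' L') (_ : IsScalarTower C' K' L') (_ : IsScalarTower K L L')
      (_ : IsScalarTower K K' L') (_ : IsScalarTower C K L') (_ : IsScalarTower C K' L'),
      IsBC C L C' L' ∧ CFF C L ∧ CFF C' L' ∧
      IntermediateField.adjoin K' (Set.range (algebraMap L L')) = ⊤ ∧
      FiniteDimensional K' L' ∧ Module.finrank K' L' = Module.finrank K L := by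
  have : IsAlgClosed C := CFF.ac K
  obtain ⟨L', i1, i2, i3, i4, i5, i6, t1, t2, t3, t4, t5, t6, t7, hL, hgen, -⟩ :=
    exists_bc_ext h L
  have hf := h.finite_ext (L := L) (L' := L') (fun x => by
    rw [← IsScalarTower.algebraMap_apply, ← IsScalarTower.algebraMap_apply]) hgen
  have hCL : CFF C L := P025H816.cff_of_finite (K := K)
  exact ⟨L', i1, i2, i3, i4, i5, i6, t1, t2, t3, t4, t5, t6, t7, hL, hCL, hL.cff, hgen,
    hf.1, hf.2⟩

end P025H941
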