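import Vale.Agent.P276.H270.Amalg
import Mathlib.FieldTheory.LinearDisjoint
import Mathlib.RingTheory.Algebraic.Integral
import Mathlib.FieldTheory.PrimitiveElement

/-!
# P025 G-BC: base change of extensions of an algebraically closed field of constants

`IsBC C K C' K'` : `K'` is the field of fractions of `K ⊗[C] C'`.
-/

set_option linter.unusedSectionVars false

namespace P025H941

open Module TensorProduct

universe u v w

section defs

variable (C K C' K' : Type*) [Field C] [Field K] [Field C'] [Field K'] [Algebra C K]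
  [Algebra C C'] [Algebra C K'] [Algebra K K'] [Algebra C' K'] [IsScalarTower C K K']
  [IsScalarTower C C' K']

/-- the `C'`-span of `K` in `K'`. -/
def spn : Submodule C' K' := Submodule.span C' (Set.range (algebraMap K K'))

/-- `K'` is the field of fractions of `K ⊗[C] C'`. -/
structure IsBC : Prop where
  li : ∀ {n : ℕ} {v : Fin n → K}, LinearIndependent C v →
    LinearIndependent C' (fun i => algebraMap K K' (v i))
  gen : ∀ z : K', ∃ a ∈ spn K C' K', ∃ b ∈ spn K C' K', b ≠ 0 ∧ z = a / b

end defs

theorem tensor_coords {C L C' : Type*} [Field C] [AddCommGroup L] [Module C L] [AddCommGroup C']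
    [Module C C'] {ι : Type*} [Fintype ι] {v : ι → L} (hv : LinearIndependent C v) {c : ι → C'}
    (h : ∑ i, v i ⊗ₜ[C] c i = 0) : ∀ i, c i = 0 := by
  classical
  intro j
  obtain ⟨g, hg⟩ := LinearMap.exists_leftInverse_of_injective (Finsupp.linearCombination C v)
    (LinearMap.ker_eq_bot.2 hv)
  let φ : L →ₗ[C] C := (Finsupp.lapply j).comp g
  have hφ : ∀ i, φ (v i) = if i = j then 1 else 0 := by
    intro i
    have h1 : g (v i) = Finsupp.single i 1 := by
      have := LinearMap.congr_fun hg (Finsupp.single i 1)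
      simpa using this
    simp [φ, h1, Finsupp.single_apply]
  let Φ : L ⊗[C] C' →ₗ[C] C' := TensorProduct.lift ((LinearMap.lsmul C C').comp φ)
  have h2 := congrArg Φ h
  rw [map_sum, map_zero] at h2
  simpa [Φ, hφ] using h2

section basic

variable {C K C' K' : Type*} [Field C] [Field K] [Field C'] [Field K'] [Algebra C K]
  [Algebra C C'] [Algebra C K'] [Algebra K K'] [Algebra C' K'] [IsScalarTower C K K']
  [IsScalarTower C C' K']

theorem li_of_inj (φ : K ⊗[C] C' →ₐ[C] K') (hφ : Function.Injective φ)
    (h : ∀ x c, φ (x ⊗ₜ c) = algebraMap K K' x * algebraMap C' K' c) {ι : Type*} {v : ι → K}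
    (hv : LinearIndependent C v) : LinearIndependent C' (fun i => algebraMap K K' (v i)) := by
  rw [linearIndependent_iff']
  intro s c hc i hi
  have h1 : (∑ j : s, v j.1 ⊗ₜ[C] c j.1 : K ⊗[C] C') = 0 := by
    apply hφ
    have h2 : φ (∑ j : s, v j.1 ⊗ₜ[C] c j.1) = ∑ i ∈ s, c i • algebraMap K K' (v i) := by
      rw [map_sum, ← Finset.sum_coe_sort s]
      exact Finset.sum_congr rfl (fun j _ => by rw [h, Algebra.smul_def, mul_comm])
    rw [h2, hc, map_zero]
  exact tensor_coords (hv.comp (fun j : s => (j : ι)) Subtype.val_injective) h1 ⟨i, hi⟩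

variable (C K C' K') in
/-- the canonical map. -/
noncomputable def can : K ⊗[C] C' →ₐ[C] K' :=
  Algebra.TensorProduct.productMap (IsScalarTower.toAlgHom C K K') (IsScalarTower.toAlgHom C C' K')

theorem can_tmul (x : K) (c : C') :
    can C K C' K' (x ⊗ₜ c) = algebraMap K K' x * algebraMap C' K' c := by
  simp [can]

theorem can_mem (z : K ⊗[C] C') : can C K C' K' z ∈ spn K C' K' := by
  induction z using TensorProduct.induction_on with
  | zero => rw [map_zero]; exact Submodule.zero_mem _
  | tmul x c =>
    rw [can_tmul, mul_comm, ← Algebra.smul_def]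
    exact Submodule.smul_mem _ _ (Submodule.subset_span ⟨x, rfl⟩)
  | add x y hx hy => rw [map_add]; exact Submodule.add_mem _ hx hy

theorem exists_can {z : K'} (hz : z ∈ spn K C' K') : ∃ t, can C K C' K' t = z := by
  induction hz using Submodule.span_induction with
  | mem x hx =>
    obtain ⟨y, rfl⟩ := hx
    exact ⟨y ⊗ₜ 1, by rw [can_tmul]; simp⟩
  | zero => exact ⟨0, map_zero _⟩
  | add x y _ _ hx hy =>
    obtain ⟨t, rfl⟩ := hx
    obtain ⟨s, rfl⟩ := hy
    exact ⟨t + s, map_add _ _ _⟩
  | smul c x _ hx =>
    obtain ⟨t, rfl⟩ := hx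
    refine ⟨(1 ⊗ₜ c) * t, ?_⟩
    rw [map_mul, can_tmul, map_one, one_mul, Algebra.smul_def]

variable (C) in
include C in
theorem spn_mul {x y : K'} (hx : x ∈ spn K C' K') (hy : y ∈ spn K C' K') :
    x * y ∈ spn K C' K' := by
  obtain ⟨s, rfl⟩ := exists_can (C := C) hx
  obtain ⟨t, rfl⟩ := exists_can (C := C) hy
  rw [← map_mul]
  exact can_mem _

theorem mem_spn_left (x : K) : algebraMap K K' x ∈ spn K C' K' :=
  Submodule.subset_span ⟨x, rfl⟩

theorem mem_spn_right (c : C') : algebraMap C' K' c ∈ spn K C' K' := by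
  rw [Algebra.algebraMap_eq_smul_one, ← map_one (algebraMap K K')]
  exact Submodule.smul_mem _ _ (mem_spn_left 1)

theorem one_mem_spn : (1 : K') ∈ spn K C' K' := by
  rw [← map_one (algebraMap K K')]
  exact mem_spn_left 1

theorem IsBC.li' (h : IsBC C K C' K') {ι : Type*} {v : ι → K} (hv : LinearIndependent C v) :
    LinearIndependent C' (fun i => algebraMap K K' (v i)) := by
  rw [linearIndependent_iff_finset_linearIndependent]
  intro s
  let e : s ≃ Fin (Fintype.card s) := Fintype.equivFin s
  have h1 := h.li (v := v ∘ Subtype.val ∘ e.symm)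
    (hv.comp _ (Subtype.val_injective.comp e.symm.injective))
  have h2 := h1.comp e e.injective
  convert h2 using 1
  ext i
  simp

theorem IsBC.inj (h : IsBC C K C' K') : Function.Injective (can C K C' K') := by
  rw [injective_iff_map_eq_zero]
  intro z hz
  classical
  let b := Basis.ofVectorSpace C K
  obtain ⟨f, rfl⟩ := TensorProduct.eq_repr_basis_left b z
  have h1 := linearIndependent_iff.1 (h.li' b.linearIndependent) f ?_
  · rw [h1, Finsupp.sum_zero_index]
  · rw [← hz, Finsupp.sum, map_sum, Finsupp.linearCombination_apply, Finsupp.sum]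
    refine Finset.sum_congr rfl fun i _ => ?_
    rw [can_tmul, Algebra.smul_def, mul_comm]

/-- criterion. -/
theorem isBC_of_inj (hi : Function.Injective (can C K C' K'))
    (hg : ∀ z : K', ∃ a b : K ⊗[C] C', can C K C' K' b ≠ 0 ∧
      z = can C K C' K' a / can C K C' K' b) : IsBC C K C' K' where
  li hv := li_of_inj _ hi can_tmul hv
  gen z := by
    obtain ⟨a, b, h0, h⟩ := hg z
    exact ⟨_, can_mem a, _, can_mem b, h0, h⟩

end basic

/-- existence of the base change. -/
theorem exists_bc (C : Type u) (K : Type v) (C' : Type w) [Field C] [IsAlgClosed C] [Field K]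
    [Algebra C K] [Field C'] [Algebra C C'] :
    ∃ (K' : Type (max v w)) (_ : Field K') (_ : Algebra C K') (_ : Algebra K K')
      (_ : Algebra C' K') (_ : IsScalarTower C K K') (_ : IsScalarTower C C' K'),
      IsBC C K C' K' := by
  have hdom : IsDomain (K ⊗[C] C') := Vale.Agent.P276.H270.isDomain_tensor
  let R := K ⊗[C] C'
  let K' := FractionRing R
  let a1 : Algebra C K' := inferInstance
  let a2 : Algebra K K' :=
    ((algebraMap R K').comp (Algebra.TensorProduct.includeLeft : K →ₐ[C] R).toRingHom).toAlgebra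
  let a3 : Algebra C' K' :=
    ((algebraMap R K').comp (Algebra.TensorProduct.includeRight : C' →ₐ[C] R).toRingHom).toAlgebra
  have t1 : @IsScalarTower C K K' _ a2.toSMul a1.toSMul := by
    refine @IsScalarTower.of_algebraMap_eq C K K' _ _ _ _ a2 a1 fun x => ?_
    change algebraMap C K' x = algebraMap R K' (algebraMap C K x ⊗ₜ 1)
    rw [IsScalarTower.algebraMap_apply C R K']
    rfl
  have t2 : @IsScalarTower C C' K' _ a3.toSMul a1.toSMul := by
    refine @IsScalarTower.of_algebraMap_eq C C' K' _ _ _ _ a3 a1 fun x => ?_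
    change algebraMap C K' x = algebraMap R K' (1 ⊗ₜ algebraMap C C' x)
    rw [IsScalarTower.algebraMap_apply C R K', Algebra.TensorProduct.algebraMap_apply,
      Algebra.TensorProduct.tmul_one_eq_one_tmul]
  refine ⟨K', inferInstance, a1, a2, a3, t1, t2, ?_⟩
  have key : ∀ z : R, @can C K C' K' _ _ _ _ _ _ a1 a2 a3 t1 t2 z = algebraMap R K' z := by
    intro z
    induction z using TensorProduct.induction_on with
    | zero => rw [map_zero, map_zero]
    | tmul x c =>
      rw [can_tmul]
      change algebraMap R K' (x ⊗ₜ 1) * algebraMap R K' (1 ⊗ₜ c) = _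
      rw [← map_mul, Algebra.TensorProduct.tmul_mul_tmul, mul_one, one_mul]
    | add x y hx hy => rw [map_add, map_add, hx, hy]
  apply isBC_of_inj
  · intro x y hxy
    rw [key, key] at hxy
    exact IsFractionRing.injective R K' hxy
  · intro z
    obtain ⟨a, b, hb, rfl⟩ := IsFractionRing.div_surjective (A := R) z
    refine ⟨a, b, ?_, ?_⟩
    · rw [key]
      exact IsFractionRing.to_map_ne_zero_of_mem_nonZeroDivisors hb
    · rw [key, key]

end P025H941
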