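import Vale.Agent.P025.R2.H941.Bc

/-!
# P025 G-BC: algebraic extensions of the base change
-/

set_option linter.unusedSectionVars false

namespace P025H941

open Module TensorProduct

universe u v w

section

variable {C K C' K' : Type*} [Field C] [Field K] [Field C'] [Field K'] [Algebra C K]
  [Algebra C C'] [Algebra C K'] [Algebra K K'] [Algebra C' K'] [IsScalarTower C K K']
  [IsScalarTower C C' K']

/-- algebraic extensions of `K` stay linearly disjoint from the constants. -/
theorem inj_of_algebraic [IsAlgClosed C] (h : IsBC C K C' K') {L Ω : Type*} [Field L] [Field Ω]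
    [Algebra C L] [Algebra K L] [IsScalarTower C K L] [Algebra.IsAlgebraic K L]
    [Algebra C Ω] [Algebra C' Ω] [Algebra L Ω] [IsScalarTower C L Ω] [IsScalarTower C C' Ω]
    [Algebra K' Ω] [IsScalarTower C' K' Ω]
    (hc : ∀ x : K, algebraMap L Ω (algebraMap K L x) = algebraMap K' Ω (algebraMap K K' x)) :
    Function.Injective (can C L C' Ω) := by
  have hdom : IsDomain (L ⊗[C] C') := Vale.Agent.P276.H270.isDomain_tensor
  let f : K ⊗[C] C' →ₐ[C] L ⊗[C] C' :=
    Algebra.TensorProduct.map (IsScalarTower.toAlgHom C K L) (AlgHom.id C C')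
  algebraize [f.toRingHom]
  have hint : Algebra.IsIntegral (K ⊗[C] C') (L ⊗[C] C') := by
    refine ⟨fun z => ?_⟩
    induction z using TensorProduct.induction_on with
    | zero => exact isIntegral_zero
    | tmul x c =>
      have e : (x ⊗ₜ[C] c : L ⊗[C] C') = (x ⊗ₜ 1) * (1 ⊗ₜ c) := by
        rw [Algebra.TensorProduct.tmul_mul_tmul, mul_one, one_mul]
      rw [e]
      refine IsIntegral.mul ?_ ?_
      · obtain ⟨P, hP, hx⟩ := (Algebra.IsIntegral.isIntegral (R := K) x)
        refine ⟨P.map (Algebra.TensorProduct.includeLeft : K →ₐ[C] K ⊗[C] C').toRingHom,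
          hP.map _, ?_⟩
        rw [Polynomial.eval₂_map]
        have h1 := congrArg (Algebra.TensorProduct.includeLeft : L →ₐ[C] L ⊗[C] C').toRingHom hx
        rw [map_zero, Polynomial.hom_eval₂] at h1
        have h2 : (algebraMap (K ⊗[C] C') (L ⊗[C] C')).comp
            (Algebra.TensorProduct.includeLeft : K →ₐ[C] K ⊗[C] C').toRingHom =
            (Algebra.TensorProduct.includeLeft : L →ₐ[C] L ⊗[C] C').toRingHom.comp
              (algebraMap K L) := by
          ext y
          change f (y ⊗ₜ 1) = (algebraMap K L y) ⊗ₜ 1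
          simp [f]
        rw [h2]
        exact h1
      · have : (1 ⊗ₜ c : L ⊗[C] C') = algebraMap (K ⊗[C] C') (L ⊗[C] C') (1 ⊗ₜ c) := by
          change _ = f (1 ⊗ₜ c)
          simp [f]
        rw [this]
        exact isIntegral_algebraMap
    | add x y hx hy => exact hx.add hy
  have hker : RingHom.ker (can C L C' Ω) = ⊥ := by
    have : (RingHom.ker (can C L C' Ω)).comap (algebraMap (K ⊗[C] C') (L ⊗[C] C')) = ⊥ := by
      rw [eq_bot_iff]
      intro z hz
      rw [Ideal.mem_comap, RingHom.mem_ker] at hz
      have h2 : ∀ z : K ⊗[C] C', can C L C' Ω (f z) = algebraMap K' Ω (can C K C' K' z) := by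
        intro z
        induction z using TensorProduct.induction_on with
        | zero => simp
        | tmul x c =>
          simp only [f, Algebra.TensorProduct.map_tmul, can_tmul, map_mul,
            IsScalarTower.coe_toAlgHom', hc, AlgHom.coe_id, id_eq]
          rw [← IsScalarTower.algebraMap_apply C' K' Ω]
        | add x y hx hy => simp only [map_add, hx, hy]
      have h3 : algebraMap K' Ω (can C K C' K' z) = 0 := by rw [← h2]; exact hz
      have h4 := (algebraMap K' Ω).injective (h3.trans (map_zero _).symm)
      rw [Ideal.mem_bot]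
      exact h.inj (h4.trans (map_zero _).symm)
    exact Ideal.eq_bot_of_comap_eq_bot this
  rw [RingHom.ker_eq_bot_iff_eq_zero] at hker
  rw [injective_iff_map_eq_zero]
  exact hker

end

end P025H941
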