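import Vale.Agent.P025.R2.H941.Bc2

/-!
# P025 G-BC: `K` is algebraically closed in `K'`; algebraic extensions; degrees
-/

set_option linter.unusedSectionVars false

namespace P025H941

open Module TensorProduct

universe u v w

section coords

variable {C K L C' : Type*} [Field C] [Field K] [Field L] [Field C'] [Algebra C K] [Algebra C L]
  [Algebra C C'] [Algebra K L] [IsScalarTower C K L] {κ : Type*} [DecidableEq κ]
  (c : Basis κ C C')

variable (C K L C') in
/-- base change `K ⊗ C' → L ⊗ C'`. -/
noncomputable def up : K ⊗[C] C' →ₐ[C] L ⊗[C] C' :=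
  Algebra.TensorProduct.map (IsScalarTower.toAlgHom C K L) (AlgHom.id C C')

theorem up_tmul (x : K) (y : C') : up C K L C' (x ⊗ₜ y) = algebraMap K L x ⊗ₜ y := by
  simp [up]

/-- coordinates. -/
noncomputable def crd (c : Basis κ C C') (z : K ⊗[C] C') (j : κ) : K :=
  TensorProduct.equivFinsuppOfBasisRight c z j

theorem crd_add (x y : K ⊗[C] C') (j : κ) : crd c (x + y) j = crd c x j + crd c y j := by
  simp [crd]

theorem crd_zero (j : κ) : crd c (0 : K ⊗[C] C') j = 0 := by simp [crd]

theorem crd_sub (x y : K ⊗[C] C') (j : κ) : crd c (x - y) j = crd c x j - crd c y j := by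
  simp [crd]

theorem crd_tmul (x : K) (y : C') (j : κ) : crd c (x ⊗ₜ y) j = c.repr y j • x := by
  rw [crd, TensorProduct.equivFinsuppOfBasisRight_apply_tmul_apply]

theorem crd_sum {ι : Type*} (s : Finset ι) (f : ι → K ⊗[C] C') (j : κ) :
    crd c (∑ i ∈ s, f i) j = ∑ i ∈ s, crd c (f i) j := by
  simp [crd]

theorem crd_ext {x y : K ⊗[C] C'} (h : ∀ j, crd c x j = crd c y j) : x = y := by
  apply (TensorProduct.equivFinsuppOfBasisRight c).injective
  ext j
  exact h j

theorem crd_up (z : K ⊗[C] C') (j : κ) : crd c (up C K L C' z) j = algebraMap K L (crd c z j) := by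
  induction z using TensorProduct.induction_on with
  | zero => rw [map_zero, crd_zero, crd_zero, map_zero]
  | tmul x y =>
    rw [up_tmul, crd_tmul, crd_tmul, Algebra.smul_def, Algebra.smul_def, map_mul,
      ← IsScalarTower.algebraMap_apply]
  | add x y hx hy => rw [map_add, crd_add, crd_add, hx, hy, map_add]

theorem crd_mul (x : L) (z : L ⊗[C] C') (j : κ) : crd c ((x ⊗ₜ 1) * z) j = x * crd c z j := by
  induction z using TensorProduct.induction_on with
  | zero => rw [mul_zero, crd_zero, mul_zero]
  | tmul a y =>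
    rw [Algebra.TensorProduct.tmul_mul_tmul, one_mul, crd_tmul, crd_tmul, mul_smul_comm]
  | add a b hx hy => rw [mul_add, crd_add, crd_add, hx, hy, mul_add]

end coords

section basic

variable {C K C' K' : Type*} [Field C] [Field K] [Field C'] [Field K'] [Algebra C K]
  [Algebra C C'] [Algebra C K'] [Algebra K K'] [Algebra C' K'] [IsScalarTower C K K']
  [IsScalarTower C C' K']

theorem can_up {L Ω : Type*} [Field L] [Field Ω]
    [Algebra C L] [Algebra K L] [IsScalarTower C K L]
    [Algebra C Ω] [Algebra C' Ω] [Algebra L Ω] [IsScalarTower C L Ω] [IsScalarTower C C' Ω]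
    [Algebra K' Ω] [IsScalarTower C' K' Ω]
    (hc : ∀ x : K, algebraMap L Ω (algebraMap K L x) = algebraMap K' Ω (algebraMap K K' x))
    (z : K ⊗[C] C') : can C L C' Ω (up C K L C' z) = algebraMap K' Ω (can C K C' K' z) := by
  induction z using TensorProduct.induction_on with
  | zero => simp
  | tmul x c =>
    rw [up_tmul, can_tmul, can_tmul, map_mul, hc, ← IsScalarTower.algebraMap_apply C' K' Ω]
  | add x y hx hy => simp only [map_add, hx, hy]

/-- **`K` is algebraically closed in `K'`.** -/
theorem IsBC.mem_of_isAlgebraic [IsAlgClosed C] (h : IsBC C K C' K') {z : K'}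
    (hz : IsAlgebraic K z) : ∃ y : K, algebraMap K K' y = z := by
  classical
  obtain ⟨a, ha, b, hb, hb0, e⟩ := h.gen z
  obtain ⟨s, rfl⟩ := exists_can (C := C) ha
  obtain ⟨t, rfl⟩ := exists_can (C := C) hb
  let L : IntermediateField K K' := IntermediateField.adjoin K {z}
  have hL : Algebra.IsAlgebraic K L := IntermediateField.isAlgebraic_adjoin (by
    rintro x rfl
    exact hz.isIntegral)
  have hzL : z ∈ L := IntermediateField.mem_adjoin_simple_self K z
  have tw : IsScalarTower C L K' := by
    refine IsScalarTower.of_algebraMap_eq fun x => ?_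
    rw [IsScalarTower.algebraMap_apply C K K', IsScalarTower.algebraMap_apply C K L]
    rfl
  let zL : L := ⟨z, hzL⟩
  have hinj : Function.Injective (can C L C' K') :=
    inj_of_algebraic (L := L) (Ω := K') h (fun x => rfl)
  have hcu : ∀ w : K ⊗[C] C', can C L C' K' (up C K L C' w) = can C K C' K' w := fun w =>
    can_up (K := K) (K' := K') (L := L) (Ω := K') (fun x => rfl) w
  have h1 : (zL ⊗ₜ 1) * up C K L C' t = up C K L C' s := by
    apply hinj
    rw [map_mul, can_tmul, hcu, hcu, map_one, mul_one]
    change z * can C K C' K' t = can C K C' K' s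
    rw [e, div_mul_cancel₀ _ hb0]
  let c := Basis.ofVectorSpace C C'
  have h2 : ∃ j, crd c t j ≠ 0 := by
    by_contra hcon
    push Not at hcon
    apply hb0
    rw [crd_ext c (x := t) (y := 0) (fun j => by rw [hcon j, crd_zero]), map_zero]
  obtain ⟨j, hj⟩ := h2
  have h3 := congrArg (fun w => crd c w j) h1
  simp only [crd_mul, crd_up] at h3
  have h4 : z * algebraMap K K' (crd c t j) = algebraMap K K' (crd c s j) :=
    congrArg (algebraMap L K') h3
  refine ⟨crd c s j / crd c t j, ?_⟩
  rw [map_div₀, ← h4, mul_div_cancel_right₀]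
  exact (map_ne_zero _).2 hj

/-- powers. -/
theorem IsBC.isPow [IsAlgClosed C] (h : IsBC C K C' K') {n : ℕ} (hn : n ≠ 0) {f : K} {g : K'}
    (e : algebraMap K K' f = g ^ n) : ∃ g₀ : K, algebraMap K K' g₀ = g ∧ f = g₀ ^ n := by
  have hg : IsAlgebraic K g := by
    refine ⟨Polynomial.X ^ n - Polynomial.C f, ?_, ?_⟩
    · exact Polynomial.X_pow_sub_C_ne_zero (Nat.pos_of_ne_zero hn) f
    · rw [map_sub, map_pow, Polynomial.aeval_X, Polynomial.aeval_C, e, sub_self]
  obtain ⟨y, rfl⟩ := h.mem_of_isAlgebraic hg
  refine ⟨y, rfl, (algebraMap K K').injective ?_⟩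
  rw [e, map_pow]

/-- transcendental elements stay transcendental. -/
theorem IsBC.transcendental (h : IsBC C K C' K') {x : K} (hx : Transcendental C x) :
    Transcendental C' (algebraMap K K' x) := by
  have h1 : LinearIndependent C (fun i : ℕ => x ^ i) := by
    rw [transcendental_iff_injective] at hx
    have h2 : LinearIndependent C (fun i : ℕ => (Polynomial.X ^ i : Polynomial C)) := by
      have := (Polynomial.basisMonomials C).linearIndependent
      convert this using 2 with i
      rw [Polynomial.coe_basisMonomials, Polynomial.X_pow_eq_monomial]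
    have h3 := h2.map' (Polynomial.aeval x).toLinearMap (LinearMap.ker_eq_bot.2 hx)
    have h4 : (⇑(Polynomial.aeval (R := C) x).toLinearMap ∘ fun i : ℕ => Polynomial.X ^ i) =
        fun i : ℕ => x ^ i := by
      ext i
      simp
    rw [h4] at h3
    exact h3
  have h2 := h.li' h1
  rw [transcendental_iff]
  intro p hp
  rw [Polynomial.aeval_eq_sum_range] at hp
  rw [linearIndependent_iff'] at h2
  ext i
  by_cases hi : i ∈ Finset.range (p.natDegree + 1)
  · rw [Polynomial.coeff_zero]
    refine h2 (Finset.range (p.natDegree + 1)) p.coeff ?_ i hi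
    rw [← hp]
    exact Finset.sum_congr rfl fun j _ => by rw [map_pow]
  · rw [Finset.mem_range, not_lt] at hi
    rw [Polynomial.coeff_zero, Polynomial.coeff_eq_zero_of_natDegree_lt (by omega)]

end basic

end P025H941
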