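import Vale.Agent.P025.R2.H941.Bc3
import Mathlib.FieldTheory.IntermediateField.Adjoin.Algebra

/-!
# P025 G-BC: algebraic extensions of `K`, degrees
-/

set_option linter.unusedSectionVars false

namespace P025H941

open Module TensorProduct

universe u v w

section ext

variable {C K C' K' : Type*} [Field C] [Field K] [Field C'] [Field K'] [Algebra C K]
  [Algebra C C'] [Algebra C K'] [Algebra K K'] [Algebra C' K'] [IsScalarTower C K K']
  [IsScalarTower C C' K']
  {L L' : Type*} [Field L] [Field L'] [Algebra C L] [Algebra K L] [IsScalarTower C K L]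
  [Algebra C L'] [Algebra C' L'] [Algebra L L'] [IsScalarTower C L L'] [IsScalarTower C C' L']
  [Algebra K' L'] [IsScalarTower C' K' L']

/-- fractions of elements of the span. -/
def Fr (K C' K' : Type*) [Field K] [Field C'] [Field K'] [Algebra K K'] [Algebra C' K']
    (z : K') : Prop :=
  ∃ a ∈ spn K C' K', ∃ b ∈ spn K C' K', b ≠ 0 ∧ z = a / b

include C in
variable (C) in
theorem Fr.mul {x y : K'} (hx : Fr K C' K' x) (hy : Fr K C' K' y) : Fr K C' K' (x * y) := by
  obtain ⟨a, ha, b, hb, h0, rfl⟩ := hx
  obtain ⟨c, hc, d, hd, h1, rfl⟩ := hy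
  exact ⟨a * c, spn_mul C ha hc, b * d, spn_mul C hb hd, mul_ne_zero h0 h1, by
    rw [div_mul_div_comm]⟩

include C in
variable (C) in
theorem Fr.add {x y : K'} (hx : Fr K C' K' x) (hy : Fr K C' K' y) : Fr K C' K' (x + y) := by
  obtain ⟨a, ha, b, hb, h0, rfl⟩ := hx
  obtain ⟨c, hc, d, hd, h1, rfl⟩ := hy
  exact ⟨a * d + b * c, Submodule.add_mem _ (spn_mul C ha hd) (spn_mul C hb hc), b * d,
    spn_mul C hb hd, mul_ne_zero h0 h1, by rw [div_add_div _ _ h0 h1]⟩

theorem Fr.inv {x : K'} (hx : Fr K C' K' x) : Fr K C' K' x⁻¹ := by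
  obtain ⟨a, ha, b, hb, h0, rfl⟩ := hx
  by_cases h : a = 0
  · subst h
    exact ⟨0, Submodule.zero_mem _, b, hb, h0, by simp⟩
  · exact ⟨b, hb, a, ha, h, by rw [inv_div]⟩

theorem Fr.of_mem {x : K'} (hx : x ∈ spn K C' K') : Fr K C' K' x :=
  ⟨x, hx, 1, one_mem_spn, one_ne_zero, by rw [div_one]⟩

variable (C) in
include C in
/-- the span grows. -/
theorem map_mem_spn (hc : ∀ x : K, algebraMap L L' (algebraMap K L x) =
    algebraMap K' L' (algebraMap K K' x)) {x : K'} (hx : x ∈ spn K C' K') :
    algebraMap K' L' x ∈ spn L C' L' := by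
  obtain ⟨t, rfl⟩ := exists_can (C := C) hx
  rw [← can_up (K := K) (L := L) hc]
  exact can_mem _

/-- **base change of algebraic extensions.** -/
theorem IsBC.ext [IsAlgClosed C] (h : IsBC C K C' K') [Algebra.IsAlgebraic K L]
    (hc : ∀ x : K, algebraMap L L' (algebraMap K L x) = algebraMap K' L' (algebraMap K K' x))
    (hgen : IntermediateField.adjoin K' (Set.range (algebraMap L L')) = ⊤) :
    IsBC C L C' L' where
  li hv := li_of_inj _ (inj_of_algebraic h hc) can_tmul hv
  gen z := by
    have hz : z ∈ IntermediateField.adjoin K' (Set.range (algebraMap L L')) := by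
      rw [hgen]; trivial
    change Fr L C' L' z
    induction hz using IntermediateField.adjoin_induction with
    | mem x hx =>
      obtain ⟨y, rfl⟩ := hx
      exact Fr.of_mem (mem_spn_left y)
    | algebraMap x =>
      obtain ⟨a, ha, b, hb, h0, rfl⟩ := h.gen x
      refine ⟨_, map_mem_spn C hc ha, _, map_mem_spn C hc hb,
        (map_ne_zero _).2 h0, ?_⟩
      rw [map_div₀]
    | add x y _ _ hx hy => exact Fr.add C hx hy
    | inv x _ hx => exact Fr.inv hx
    | mul x y _ _ hx hy => exact Fr.mul C hx hy

/-- **degrees.** -/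
theorem IsBC.basis_ext [IsAlgClosed C] (h : IsBC C K C' K') [FiniteDimensional K L]
    (hc : ∀ x : K, algebraMap L L' (algebraMap K L x) = algebraMap K' L' (algebraMap K K' x))
    (hgen : IntermediateField.adjoin K' (Set.range (algebraMap L L')) = ⊤)
    {ι : Type*} [Fintype ι] (b : Basis ι K L) :
    LinearIndependent K' (fun i => algebraMap L L' (b i)) ∧
      Submodule.span K' (Set.range fun i => algebraMap L L' (b i)) = ⊤ := by
  classical
  have hinj : Function.Injective (can C L C' L') := inj_of_algebraic h hc
  constructor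
  · rw [Fintype.linearIndependent_iff]
    intro g hg
    -- common denominator
    have key : ∀ s : Finset ι, ∃ d : K ⊗[C] C', can C K C' K' d ≠ 0 ∧
        ∀ i ∈ s, ∃ t : K ⊗[C] C', g i * can C K C' K' d = can C K C' K' t := by
      intro s
      induction s using Finset.induction_on with
      | empty => exact ⟨1, by rw [map_one]; exact one_ne_zero, by simp⟩
      | insert j s hj ih =>
        obtain ⟨d, hd, hs⟩ := ih
        obtain ⟨x, hx, y, hy, h0, e⟩ := h.gen (g j)
        obtain ⟨tx, rfl⟩ := exists_can (C := C) hx
        obtain ⟨ty, rfl⟩ := exists_can (C := C) hy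
        refine ⟨d * ty, by rw [map_mul]; exact mul_ne_zero hd h0, fun i hi => ?_⟩
        rcases Finset.mem_insert.1 hi with rfl | hi
        · refine ⟨tx * d, ?_⟩
          rw [e, map_mul, map_mul]
          field_simp
        · obtain ⟨t, ht⟩ := hs i hi
          exact ⟨t * ty, by rw [map_mul, map_mul, ← mul_assoc, ht]⟩
    obtain ⟨d, hd, ht⟩ := key Finset.univ
    choose t ht using fun i => ht i (Finset.mem_univ i)
    have h1 : ∑ i, (b i ⊗ₜ 1) * up C K L C' (t i) = 0 := by
      apply hinj
      rw [map_zero, map_sum]
      have : ∀ i, can C L C' L' ((b i ⊗ₜ 1) * up C K L C' (t i)) =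
          algebraMap K' L' (can C K C' K' d) * (g i • algebraMap L L' (b i)) := by
        intro i
        rw [map_mul, can_tmul, can_up (K := K) (K' := K') hc, ← ht i, map_one, mul_one, map_mul,
          Algebra.smul_def]
        ring
      rw [Finset.sum_congr rfl fun i _ => this i, ← Finset.mul_sum, hg, mul_zero]
    let c := Basis.ofVectorSpace C C'
    have h2 : ∀ j i, crd c (t i) j = 0 := by
      intro j
      have h3 := congrArg (fun w => crd c w j) h1
      simp only [crd_sum, crd_mul, crd_up, crd_zero] at h3
      have h4 := Fintype.linearIndependent_iff.1 b.linearIndependent (fun i => crd c (t i) j) (by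
        rw [← h3]
        exact Finset.sum_congr rfl fun i _ => by rw [Algebra.smul_def, mul_comm])
      exact h4
    intro i
    have h5 : t i = 0 := crd_ext c fun j => by rw [h2, crd_zero]
    have h6 := ht i
    rw [h5, map_zero] at h6
    exact (mul_eq_zero.1 h6).resolve_right hd
  · have hfin : ∀ x ∈ Set.range (algebraMap L L'), IsAlgebraic K' x := by
      rintro _ ⟨x, rfl⟩
      obtain ⟨P, hP, hx⟩ := (Algebra.IsIntegral.isIntegral (R := K) x)
      refine IsIntegral.isAlgebraic ⟨P.map (algebraMap K K'), hP.map _, ?_⟩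
      have h1 := congrArg (algebraMap L L') hx
      rw [map_zero, Polynomial.hom_eval₂] at h1
      rw [Polynomial.eval₂_map, ← h1]
      congr 1
      ext y
      exact (hc y).symm
    have h1 : Algebra.adjoin K' (Set.range (algebraMap L L')) = ⊤ := by
      rw [← IntermediateField.adjoin_toSubalgebra_of_isAlgebraic hfin, hgen]
      rfl
    have h2 : Submodule.span K' (Set.range (algebraMap L L')) = ⊤ := by
      rw [← Algebra.top_toSubmodule, ← h1, Algebra.adjoin_eq_span_of_subset]
      have : (Submonoid.closure (Set.range (algebraMap L L')) : Set L') ⊆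
          Set.range (algebraMap L L') := by
        have h4 : Submonoid.closure (Set.range (algebraMap L L')) ≤
            MonoidHom.mrange (algebraMap L L').toMonoidHom :=
          Submonoid.closure_le.2 (fun y hy => hy)
        exact fun x hx => h4 hx
      exact this.trans Submodule.subset_span
    rw [eq_top_iff, ← h2, Submodule.span_le]
    rintro _ ⟨x, rfl⟩
    rw [← b.sum_repr x, map_sum]
    refine Submodule.sum_mem _ fun i _ => ?_
    rw [Algebra.smul_def, map_mul, hc, ← Algebra.smul_def]
    exact Submodule.smul_mem _ _ (Submodule.subset_span ⟨i, rfl⟩)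

theorem IsBC.finite_ext [IsAlgClosed C] (h : IsBC C K C' K') [FiniteDimensional K L]
    (hc : ∀ x : K, algebraMap L L' (algebraMap K L x) = algebraMap K' L' (algebraMap K K' x))
    (hgen : IntermediateField.adjoin K' (Set.range (algebraMap L L')) = ⊤) :
    FiniteDimensional K' L' ∧ Module.finrank K' L' = Module.finrank K L := by
  obtain ⟨h1, h2⟩ := h.basis_ext hc hgen (Module.finBasis K L)
  let b := Basis.mk h1 h2.ge
  exact ⟨Module.Finite.of_basis b, by
    rw [Module.finrank_eq_card_basis b, Fintype.card_fin]⟩

end ext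

/-- existence of the base change of an algebraic extension. -/
theorem exists_bc_ext {C : Type*} {K : Type*} {C' : Type*} {K' : Type u} [Field C] [Field K]
    [Field C'] [Field K'] [Algebra C K] [Algebra C C'] [Algebra C K'] [Algebra K K']
    [Algebra C' K'] [IsScalarTower C K K'] [IsScalarTower C C' K'] [IsAlgClosed C]
    (h : IsBC C K C' K') (L : Type*) [Field L] [Algebra C L] [Algebra K L] [IsScalarTower C K L]
    [Algebra.IsAlgebraic K L] :
    ∃ (L' : Type u) (_ : Field L') (_ : Algebra C L') (_ : Algebra C' L') (_ : Algebra K L')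
      (_ : Algebra L L') (_ : Algebra K' L') (_ : IsScalarTower C L L')
      (_ : IsScalarTower C C' L') (_ : IsScalarTower C' K' L') (_ : IsScalarTower K L L')
      (_ : IsScalarTower K K' L') (_ : IsScalarTower C K L') (_ : IsScalarTower C K' L'),
      IsBC C L C' L' ∧ IntermediateField.adjoin K' (Set.range (algebraMap L L')) = ⊤ ∧
      Algebra.IsAlgebraic K' L' := by
  let Ω := AlgebraicClosure K'
  let f : L →ₐ[K] Ω := IsAlgClosed.lift
  let L' : IntermediateField K' Ω := IntermediateField.adjoin K' (Set.range f)
  let iC' : Algebra C' L' := ((algebraMap K' L').comp (algebraMap C' K')).toAlgebra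
  let iC : Algebra C L' := ((algebraMap K' L').comp (algebraMap C K')).toAlgebra
  let iK : Algebra K L' := ((algebraMap K' L').comp (algebraMap K K')).toAlgebra
  let g : L →+* L' := f.toRingHom.codRestrict L'.toSubring
    (fun x => IntermediateField.subset_adjoin K' _ ⟨x, rfl⟩)
  let iL : Algebra L L' := g.toAlgebra
  have hKL : ∀ x : K, algebraMap L L' (algebraMap K L x) = algebraMap K' L' (algebraMap K K' x) := by
    intro x
    apply Subtype.ext
    change f (algebraMap K L x) = algebraMap K' Ω (algebraMap K K' x)
    rw [f.commutes, IsScalarTower.algebraMap_apply K K' Ω]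
  have t1 : IsScalarTower C L L' := IsScalarTower.of_algebraMap_eq fun x => by
    rw [IsScalarTower.algebraMap_apply C K L, hKL, ← IsScalarTower.algebraMap_apply C K K']
    rfl
  have t2 : IsScalarTower C C' L' := IsScalarTower.of_algebraMap_eq fun x => by
    change algebraMap K' L' (algebraMap C K' x) = algebraMap K' L' (algebraMap C' K' _)
    rw [← IsScalarTower.algebraMap_apply C C' K']
  have t3 : IsScalarTower C' K' L' := IsScalarTower.of_algebraMap_eq fun x => rfl
  have t4 : IsScalarTower K L L' := IsScalarTower.of_algebraMap_eq fun x => (hKL x).symm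
  have t5 : IsScalarTower K K' L' := IsScalarTower.of_algebraMap_eq fun x => rfl
  have t6 : IsScalarTower C K L' := IsScalarTower.of_algebraMap_eq fun x => by
    change algebraMap K' L' (algebraMap C K' x) = algebraMap K' L' (algebraMap K K' _)
    rw [← IsScalarTower.algebraMap_apply C K K']
  have t7 : IsScalarTower C K' L' := IsScalarTower.of_algebraMap_eq fun x => rfl
  have hgen : IntermediateField.adjoin K' (Set.range (algebraMap L L')) = ⊤ := by
    rw [eq_top_iff]
    rintro ⟨x, hx⟩ -
    induction hx using IntermediateField.adjoin_induction with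
    | mem x hx =>
      obtain ⟨y, rfl⟩ := hx
      exact IntermediateField.subset_adjoin K' _ ⟨y, rfl⟩
    | algebraMap x =>
      exact (IntermediateField.adjoin K' (Set.range (algebraMap L L'))).algebraMap_mem x
    | add x y hx hy h1 h2 => exact add_mem h1 h2
    | inv x hx h1 => exact inv_mem h1
    | mul x y hx hy h1 h2 => exact mul_mem h1 h2
  have halg : Algebra.IsAlgebraic K' L' := inferInstance
  exact ⟨L', inferInstance, iC, iC', iK, iL, inferInstance, t1, t2, t3, t4, t5, t6, t7,
    h.ext hKL hgen, hgen, halg⟩

end P025H941
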