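import Vale.Agent.P025.R2.H941.Bc4

/-!
# P025 G-BC: the degree over `C(x)`
-/

set_option linter.unusedSectionVars false

namespace P025H941

open Module TensorProduct IntermediateField

universe u v w

section

variable {C K C' K' : Type*} [Field C] [Field K] [Field C'] [Field K'] [Algebra C K]
  [Algebra C C'] [Algebra C K'] [Algebra K K'] [Algebra C' K'] [IsScalarTower C K K']
  [IsScalarTower C C' K']

theorem IsBC.adjoin_range (h : IsBC C K C' K') (E : IntermediateField C' K') :
    IntermediateField.adjoin E (Set.range (algebraMap K K')) = ⊤ := by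
  rw [eq_top_iff]
  intro z _
  have hs : ∀ a ∈ spn K C' K', a ∈ IntermediateField.adjoin E (Set.range (algebraMap K K')) := by
    intro a ha
    induction ha using Submodule.span_induction with
    | mem x hx => exact IntermediateField.subset_adjoin _ _ hx
    | zero => exact zero_mem _
    | add x y _ _ hx hy => exact add_mem hx hy
    | smul c x _ hx =>
      rw [Algebra.smul_def, IsScalarTower.algebraMap_apply C' E K']
      exact mul_mem (IntermediateField.algebraMap_mem _ _) hx
  obtain ⟨a, ha, b, hb, -, rfl⟩ := h.gen z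
  exact div_mem (hs a ha) (hs b hb)

theorem map_mem_adjoin (x : K) {y : K} (hy : y ∈ C⟮x⟯) :
    algebraMap K K' y ∈ C'⟮algebraMap K K' x⟯ := by
  induction hy using IntermediateField.adjoin_induction with
  | mem z hz =>
    rw [Set.mem_singleton_iff] at hz
    subst hz
    exact IntermediateField.mem_adjoin_simple_self _ _
  | algebraMap c =>
    rw [← IsScalarTower.algebraMap_apply C K K', IsScalarTower.algebraMap_apply C C' K']
    exact IntermediateField.algebraMap_mem _ _
  | add a b _ _ ha hb => rw [map_add]; exact add_mem ha hb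
  | inv a _ ha => rw [map_inv₀]; exact inv_mem ha
  | mul a b _ _ ha hb => rw [map_mul]; exact mul_mem ha hb

variable (C C' K') in
/-- `C(x) → C'(x)`. -/
noncomputable def adjMap (x : K) : C⟮x⟯ →+* C'⟮algebraMap K K' x⟯ :=
  ((algebraMap K K').comp (algebraMap C⟮x⟯ K)).codRestrict
    (C'⟮algebraMap K K' x⟯).toSubring (fun y => map_mem_adjoin x y.2)

/-- **the degree over `C(x)` does not change.** -/
theorem IsBC.finrank_eq [IsAlgClosed C] (h : IsBC C K C' K') (x : K)
    [FiniteDimensional C⟮x⟯ K] :
    FiniteDimensional C'⟮algebraMap K K' x⟯ K' ∧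
      Module.finrank C'⟮algebraMap K K' x⟯ K' = Module.finrank C⟮x⟯ K := by
  let a1 : Algebra C⟮x⟯ C'⟮algebraMap K K' x⟯ := (adjMap C C' K' x).toAlgebra
  have e1 : ∀ y : C⟮x⟯, ((algebraMap C⟮x⟯ C'⟮algebraMap K K' x⟯ y : C'⟮algebraMap K K' x⟯) : K') =
      algebraMap K K' (y : K) := fun y => rfl
  let a2 : Algebra C C'⟮algebraMap K K' x⟯ :=
    ((algebraMap C' C'⟮algebraMap K K' x⟯).comp (algebraMap C C')).toAlgebra
  have t1 : IsScalarTower C C' C'⟮algebraMap K K' x⟯ := IsScalarTower.of_algebraMap_eq fun y => rfl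
  have t2 : IsScalarTower C C⟮x⟯ C'⟮algebraMap K K' x⟯ :=
    IsScalarTower.of_algebraMap_eq fun y => by
      apply Subtype.ext
      rw [e1]
      change algebraMap C' K' (algebraMap C C' y) = algebraMap K K' (algebraMap C K y)
      rw [← IsScalarTower.algebraMap_apply, ← IsScalarTower.algebraMap_apply]
  have h0 : IsBC C C⟮x⟯ C' C'⟮algebraMap K K' x⟯ := by
    constructor
    · intro n v hv
      have h1 : LinearIndependent C (fun i => (v i : K)) :=
        hv.map' (C⟮x⟯.val.toLinearMap) (LinearMap.ker_eq_bot.2 Subtype.val_injective)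
      have h2 := h.li h1
      exact LinearIndependent.of_comp (C'⟮algebraMap K K' x⟯.val.toLinearMap) h2
    · rintro ⟨z, hz⟩
      change Fr C⟮x⟯ C' C'⟮algebraMap K K' x⟯ _
      induction hz using IntermediateField.adjoin_induction with
      | mem y hy =>
        rw [Set.mem_singleton_iff] at hy
        subst hy
        exact Fr.of_mem (mem_spn_left (⟨x, IntermediateField.mem_adjoin_simple_self _ _⟩ : C⟮x⟯))
      | algebraMap c => exact Fr.of_mem (mem_spn_right (K := C⟮x⟯) c)
      | add a b ha hb h1 h2 => exact Fr.add C h1 h2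
      | inv a ha h1 => exact Fr.inv h1
      | mul a b ha hb h1 h2 => exact Fr.mul C h1 h2
  exact IsBC.finite_ext (K := C⟮x⟯) (K' := C'⟮algebraMap K K' x⟯) (L := K) (L' := K') h0
    (fun y => rfl) (h.adjoin_range _)

end

end P025H941
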