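import Vale.Agent.P025.R2.H941.Bc4
import Mathlib.Algebra.TrivSqZeroExt.Basic
import Mathlib.RingTheory.Derivation.Basic

/-!
# P025 G-BC: derivations extend to the base change
-/

set_option linter.unusedSectionVars false

namespace P025H941

open Module TensorProduct

section

variable {C K C' K' : Type*} [Field C] [Field K] [Field C'] [Field K'] [Algebra C K]
  [Algebra C C'] [Algebra C K'] [Algebra K K'] [Algebra C' K'] [IsScalarTower C K K']
  [IsScalarTower C C' K']

/-- the derivation on the tensor product. -/
noncomputable def dt (D : Derivation C K K) : K ⊗[C] C' →ₗ[C] K' :=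
  (can C K C' K').toLinearMap ∘ₗ TensorProduct.map D.toLinearMap LinearMap.id

theorem dt_tmul (D : Derivation C K K) (x : K) (c : C') :
    dt (K' := K') D (x ⊗ₜ c) = algebraMap K K' (D x) * algebraMap C' K' c := by
  simp [dt, can_tmul]

theorem dt_mul (D : Derivation C K K) (s t : K ⊗[C] C') :
    dt (K' := K') D (s * t) = can C K C' K' s * dt D t + dt D s * can C K C' K' t := by
  induction s using TensorProduct.induction_on with
  | zero => simp
  | tmul x c =>
    induction t using TensorProduct.induction_on with
    | zero => simp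
    | tmul y d =>
      rw [Algebra.TensorProduct.tmul_mul_tmul, dt_tmul, dt_tmul, dt_tmul, can_tmul, can_tmul,
        Derivation.leibniz, map_add, smul_eq_mul, smul_eq_mul, map_mul, map_mul, map_mul]
      ring
    | add a b ha hb => rw [mul_add, map_add, ha, hb, map_add, map_add]; ring
  | add a b ha hb => rw [add_mul, map_add, ha, hb, map_add, map_add]; ring

/-- quotient rule. -/
theorem quot_eq (h : IsBC C K C' K') (D : Derivation C K K) {a b c d : K ⊗[C] C'}
    (hb : can C K C' K' b ≠ 0) (hd : can C K C' K' d ≠ 0)
    (e : can C K C' K' a / can C K C' K' b = can C K C' K' c / can C K C' K' d) :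
    (dt D a * can C K C' K' b - can C K C' K' a * dt D b) / can C K C' K' b ^ 2 =
    (dt D c * can C K C' K' d - can C K C' K' c * dt D d) / can C K C' K' d ^ 2 := by
  have h1 : can C K C' K' (a * d) = can C K C' K' (c * b) := by
    rw [map_mul, map_mul]
    rw [div_eq_div_iff hb hd] at e
    exact e
  have h2 := congrArg (dt (K' := K') D) (h.inj h1)
  rw [dt_mul, dt_mul] at h2
  rw [map_mul, map_mul] at h1
  rw [div_eq_div_iff (pow_ne_zero 2 hb) (pow_ne_zero 2 hd)]
  linear_combination (can C K C' K' b * can C K C' K' d) * h2 -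
    (can C K C' K' b * dt D d + dt D b * can C K C' K' d) * h1

variable (C K C' K') in
/-- numerator and denominator. -/
theorem IsBC.exists_nd (h : IsBC C K C' K') (z : K') : ∃ a b : K ⊗[C] C',
    can C K C' K' b ≠ 0 ∧ z = can C K C' K' a / can C K C' K' b := by
  obtain ⟨a, ha, b, hb, h0, e⟩ := h.gen z
  obtain ⟨s, rfl⟩ := exists_can (C := C) ha
  obtain ⟨t, rfl⟩ := exists_can (C := C) hb
  exact ⟨s, t, h0, e⟩

/-- **derivations extend to the base change.** -/
theorem IsBC.exists_derivation (h : IsBC C K C' K') (D : Derivation C K K) :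
    ∃ D' : Derivation C' K' K', ∀ x, D' (algebraMap K K' x) = algebraMap K K' (D x) := by
  choose n d hd hnd using fun z => h.exists_nd C K C' K' z
  let F : K' → K' := fun z => (dt D (n z) * can C K C' K' (d z) -
    can C K C' K' (n z) * dt D (d z)) / can C K C' K' (d z) ^ 2
  have hF : ∀ (z : K') (a b : K ⊗[C] C'), can C K C' K' b ≠ 0 →
      z = can C K C' K' a / can C K C' K' b →
      F z = (dt D a * can C K C' K' b - can C K C' K' a * dt D b) / can C K C' K' b ^ 2 :=
    fun z a b hb e => quot_eq h D (hd z) hb ((hnd z).symm.trans e)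
  have hF1 : ∀ a : K ⊗[C] C', F (can C K C' K' a) = dt D a := by
    intro a
    have h1 : dt (K' := K') D (1 : K ⊗[C] C') = 0 := by
      rw [Algebra.TensorProduct.one_def, dt_tmul, Derivation.map_one_eq_zero, map_zero, zero_mul]
    rw [hF _ a 1 (by rw [map_one]; exact one_ne_zero) (by rw [map_one, div_one]), map_one, h1]
    simp
  have hadd : ∀ x y, F (x + y) = F x + F y := by
    intro x y
    have e : x + y = can C K C' K' (n x * d y + d x * n y) / can C K C' K' (d x * d y) := by
      rw [map_add, map_mul, map_mul, map_mul]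
      conv_lhs => rw [hnd x, hnd y]
      rw [div_add_div _ _ (hd x) (hd y)]
    rw [hF _ _ _ (by rw [map_mul]; exact mul_ne_zero (hd x) (hd y)) e]
    have hx := hd x
    have hy := hd y
    simp only [F, map_add, map_mul, dt_mul]
    field_simp
    ring
  have hmul : ∀ x y, F (x * y) = x * F y + y * F x := by
    intro x y
    have e : x * y = can C K C' K' (n x * n y) / can C K C' K' (d x * d y) := by
      rw [map_mul, map_mul]
      conv_lhs => rw [hnd x, hnd y]
      rw [div_mul_div_comm]
    rw [hF _ _ _ (by rw [map_mul]; exact mul_ne_zero (hd x) (hd y)) e]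
    have hx := hd x
    have hy := hd y
    have ex : x * can C K C' K' (d x) = can C K C' K' (n x) := (eq_div_iff hx).1 (hnd x)
    have ey : y * can C K C' K' (d y) = can C K C' K' (n y) := (eq_div_iff hy).1 (hnd y)
    simp only [F, map_mul, dt_mul]
    rw [← ex, ← ey]
    field_simp
    ring
  have hc : ∀ c : C', F (algebraMap C' K' c) = 0 := by
    intro c
    have e : algebraMap C' K' c = can C K C' K' (1 ⊗ₜ c) := by
      rw [can_tmul, map_one, one_mul]
    rw [e, hF1, dt_tmul, Derivation.map_one_eq_zero, map_zero, zero_mul]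
  let L : K' →ₗ[C'] K' :=
    { toFun := F
      map_add' := hadd
      map_smul' := fun c x => by
        rw [Algebra.smul_def, hmul, hc, mul_zero, add_zero, RingHom.id_apply, Algebra.smul_def] }
  refine ⟨Derivation.mk' L fun x y => ?_, fun x => ?_⟩
  · exact hmul x y
  · change F (algebraMap K K' x) = _
    have e : algebraMap K K' x = can C K C' K' (x ⊗ₜ 1) := by
      rw [can_tmul, map_one, mul_one]
    rw [e, hF1, dt_tmul, map_one, mul_one]

end

end P025H941
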