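import Vale.Agent.P025.R2.H941.BcCFF
import Vale.Agent.P025.R2.H816.BC3
import Vale.Agent.P025.R2.H587.HTDefs

/-!
# P025 G-OMBC, part 1: divisibility of divisors, systems under base change (helper941)
-/

universe u v w

namespace P025H941

open Vale.Agent.P019P P025H587

section DivBy

variable {C : Type u} {K : Type v} [Field C] [Field K] [Algebra C K] [CFF C K]

theorem valuation_eq_iff (P : Plk C K) {x y : K} (hx : x ≠ 0) (hy : y ≠ 0) :
    P.1.valuation x = P.1.valuation y ↔ ord P x = ord P y := by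
  have h1 : ∀ {a b : K}, a ≠ 0 → b ≠ 0 →
      (P.1.valuation a ≤ P.1.valuation b ↔ ord P b ≤ ord P a) := by
    intro a b ha hb
    have h2 : P.1.valuation a ≤ P.1.valuation b ↔ P.1.valuation (a / b) ≤ 1 := by
      rw [map_div₀, div_le_one₀]
      exact zero_lt_iff.2 ((Valuation.ne_zero_iff _).2 hb)
    rw [h2, P.1.valuation_le_one_iff, mem_iff_ord, or_iff_right (div_ne_zero ha hb),
      div_eq_mul_inv, ord_mul P ha (inv_ne_zero hb), ord_inv]
    omega
  rw [le_antisymm_iff, h1 hx hy, h1 hy hx]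
  omega

/-- `DivBy` in terms of the places. -/
theorem divBy_iff {q : ℕ} {f : K} (hf : f ≠ 0) :
    DivBy C q f ↔ ∀ P : Plk C K, (q : ℤ) ∣ ord P f := by
  constructor
  · intro h P
    obtain ⟨g, hg⟩ := h P.1 P.2.1
    rw [← map_pow] at hg
    have hg0 : g ^ q ≠ 0 := by
      intro h0
      rw [h0, map_zero, Valuation.zero_iff] at hg
      exact hf hg
    rw [valuation_eq_iff P hf hg0, ord_pow] at hg
    exact ⟨_, hg⟩
  · intro h O hO
    by_cases hT : O = ⊤
    · refine ⟨1, ?_⟩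
      rw [map_one, one_pow]
      refine le_antisymm ?_ ?_
      · rw [O.valuation_le_one_iff, hT]; trivial
      · have h1 : O.valuation f⁻¹ ≤ 1 := by rw [O.valuation_le_one_iff, hT]; trivial
        rw [map_inv₀] at h1
        exact (inv_le_one₀ (zero_lt_iff.2 ((Valuation.ne_zero_iff _).2 hf))).1 h1
    · let P : Plk C K := ⟨O, hO, hT⟩
      obtain ⟨m, hm⟩ := h P
      obtain ⟨π, hπ0, hπ⟩ := exists_unif P
      refine ⟨π ^ m, ?_⟩
      rw [← map_pow]
      refine (valuation_eq_iff P hf (pow_ne_zero _ (zpow_ne_zero _ hπ0))).2 ?_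
      rw [ord_pow, ord_zpow, hπ, hm, mul_one]

end DivBy

section systems

variable {C K C' K' : Type u} [Field C] [Field K] [Field C'] [Field K'] [Algebra C K]
  [Algebra C C'] [Algebra C K'] [Algebra K K'] [Algebra C' K'] [IsScalarTower C K K']
  [IsScalarTower C C' K'] [CFF C K] [CFF C' K']

omit [CFF C K] [CFF C' K'] in
theorem comm' (a : C) :
    algebraMap K K' (algebraMap C K a) = algebraMap C' K' (algebraMap C C' a) := by
  rw [← IsScalarTower.algebraMap_apply, ← IsScalarTower.algebraMap_apply]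

/-- systems go up -/
theorem IsSys.push {p : ℕ} {f : ℕ → K} (h : IsSys C p f) :
    IsSys C' p (fun m => algebraMap K K' (f m)) where
  ne m := by simpa using h.ne m
  div m := by
    have h0 : algebraMap K K' (f m) ≠ 0 := by simpa using h.ne m
    rw [divBy_iff h0]
    exact P025H816.dvd_up (comm' (C := C) (K := K) (C' := C') (K' := K'))
      ((divBy_iff (h.ne m)).1 (h.div m))
  succ m := by
    obtain ⟨g, hg⟩ := h.succ m
    exact ⟨algebraMap K K' g, by rw [hg, map_mul, map_pow]⟩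

/-- **systems of `K'` come from systems of `K`.** -/
theorem IsBC.pull [CharZero C] (hb : IsBC C K C' K') {p : ℕ} (hp : p ≠ 0) {f' : ℕ → K'}
    (h : IsSys C' p f') :
    ∃ (f : ℕ → K) (g : ℕ → K'), IsSys C p f ∧ (∀ m, g m ≠ 0) ∧
      ∀ m, f' m = algebraMap K K' (f m) * g m ^ p ^ m := by
  have h816 := hb.to816
  have h1 : ∀ m, ∃ f : K, f ≠ 0 ∧ (∀ P : Plk C K, ((p ^ m : ℕ) : ℤ) ∣ ord P f) ∧
      ∃ y : K', y ≠ 0 ∧ f' m = algebraMap K K' f * y ^ p ^ m := fun m =>
    h816.exists_eq_mul_pow (pow_ne_zero m hp) (h.ne m) ((divBy_iff (h.ne m)).1 (h.div m))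
  choose f hf0 hfd g hg0 hfg using h1
  refine ⟨f, g, ⟨hf0, fun m => (divBy_iff (hf0 m)).2 (hfd m), fun m => ?_⟩, hg0, hfg⟩
  obtain ⟨h', hh'⟩ := h.succ m
  have hne : algebraMap K K' (f m) ≠ 0 := by simpa using hf0 m
  have hne' : algebraMap K K' (f (m + 1)) ≠ 0 := by simpa using hf0 (m + 1)
  have e1 : (g m * h' / g (m + 1) ^ p) ^ p ^ m = algebraMap K K' (f (m + 1) / f m) := by
    have e2 := hfg (m + 1)
    rw [hh', hfg m, pow_succ' p m, pow_mul] at e2
    rw [map_div₀, div_pow, mul_pow, div_eq_div_iff (pow_ne_zero _ (pow_ne_zero _ (hg0 _))) hne]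
    linear_combination e2
  obtain ⟨z, -, hz⟩ := h816.pow_of_pow (pow_ne_zero m hp) e1
  exact ⟨z, by rw [hz]; field_simp [hf0 m]⟩

end systems

end P025H941
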