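import Vale.Agent.P025.R2.H941.OM1
import Vale.Agent.P025.R2.H941.OM2
import Vale.Agent.P025.R2.H602.Der
import Vale.Agent.P025.R2.H941.Der

/-!
# P025 G-OMBC, part 3: vanishing of all Hodge-Tate forms under base change (helper941)
-/

universe u v

namespace P025H941

open P025H373 P025H16 P025H587 IntermediateField Vale.Agent.P019P

section Der

variable {C : Type u} {K : Type v} [Field C] [CharZero C] [Field K] [Algebra C K]

omit [CharZero C] in
/-- function fields as finite extensions of `C(t)` -/
theorem exists_rat (hK : IsFF C K) : ∃ _ : Algebra (RatFunc C) K,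
    IsScalarTower C (RatFunc C) K ∧ FiniteDimensional (RatFunc C) K := by
  obtain ⟨x, hx, hfd⟩ := hK
  let e := RatFunc.algEquivOfTranscendental x hx
  let _ : Algebra (RatFunc C) C⟮x⟯ := e.toRingEquiv.toRingHom.toAlgebra
  let a : Algebra (RatFunc C) K :=
    ((algebraMap C⟮x⟯ K).comp e.toRingEquiv.toRingHom).toAlgebra
  have t1 : IsScalarTower (RatFunc C) C⟮x⟯ K := IsScalarTower.of_algebraMap_eq fun _ => rfl
  have t2 : IsScalarTower C (RatFunc C) K := IsScalarTower.of_algebraMap_eq fun c => by
    change _ = algebraMap C⟮x⟯ K (e (algebraMap C (RatFunc C) c))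
    rw [e.commutes]
    rfl
  have f1 : Module.Finite (RatFunc C) C⟮x⟯ :=
    Module.Finite.of_surjective (Algebra.linearMap (RatFunc C) C⟮x⟯) e.surjective
  exact ⟨a, t2, Module.Finite.trans C⟮x⟯ K⟩

open Differential in
/-- extension of derivations to finite extensions in characteristic zero. -/
theorem exists_ext_der {R F E : Type*} [Field R] [Field F] [CharZero F] [Field E] [Algebra F E]
    [Algebra R F] [Algebra R E] [IsScalarTower R F E] [FiniteDimensional F E]
    (d : Derivation R F F) :
    ∃ D : Derivation R E E, ∀ a, D (algebraMap F E a) = algebraMap F E (d a) := by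
  let dF : Differential F := ⟨d.restrictScalars ℤ⟩
  let dE : Differential E := Differential.differentialFiniteDimensional F E
  have hDA : DifferentialAlgebra F E := Differential.differentialAlgebraFiniteDimensional
  have hE : ∀ a : F, dE.deriv (algebraMap F E a) = algebraMap F E (d a) :=
    fun a => hDA.deriv_algebraMap a
  let D : Derivation R E E := Derivation.mk'
    { toFun := fun z => dE.deriv z
      map_add' := fun x y => map_add _ x y
      map_smul' := fun c x => by
        have h1 : dE.deriv (algebraMap R E c) = 0 := by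
          rw [IsScalarTower.algebraMap_apply R F E, hE, Derivation.map_algebraMap, map_zero]
        rw [RingHom.id_apply, Algebra.smul_def, Derivation.leibniz, h1, smul_zero, add_zero,
          smul_eq_mul, Algebra.smul_def] }
    (fun x y => dE.deriv.leibniz x y)
  exact ⟨D, hE⟩

/-- a function field has a nonzero derivation. -/
theorem exists_der_ne_zero (hK : IsFF C K) : ∃ D : Derivation C K K, D ≠ 0 := by
  obtain ⟨a, t, hfd⟩ := exists_rat hK
  have : CharZero (RatFunc C) :=
    charZero_of_injective_algebraMap (algebraMap C (RatFunc C)).injective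
  obtain ⟨D, hD⟩ := exists_ext_der (E := K) (P025H373.rd C)
  refine ⟨D, fun h0 => ?_⟩
  have h1 : D (algebraMap (RatFunc C) K RatFunc.X) = 0 := by rw [h0]; rfl
  rw [hD, ← RatFunc.algebraMap_X, P025H373.rd_poly, Polynomial.derivative_X, map_one,
    map_one] at h1
  exact one_ne_zero h1

/-- two derivations are proportional. -/
theorem exists_smul_eq (hK : IsFF C K) {D₀ : Derivation C K K} (h0 : D₀ ≠ 0)
    (D : Derivation C K K) : ∃ x : K, D = x • D₀ := by
  obtain ⟨t, ht, hfd⟩ := hK
  have : CharZero C⟮t⟯ := charZero_of_injective_algebraMap (algebraMap C C⟮t⟯).injective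
  have key : ∀ δ : Derivation C K K, δ t = 0 → δ = 0 := by
    intro δ hδ
    have h1 : ∀ z ∈ C⟮t⟯, δ z = 0 := by
      intro z hz
      induction hz using IntermediateField.adjoin_induction with
      | mem x hx => rw [Set.mem_singleton_iff.1 hx, hδ]
      | algebraMap c => exact δ.map_algebraMap c
      | add x y _ _ hx hy => rw [map_add, hx, hy, add_zero]
      | inv x _ hx => rw [Derivation.leibniz_inv, hx, smul_zero]
      | mul x y _ _ hx hy => rw [Derivation.leibniz, hx, hy, smul_zero, smul_zero, add_zero]
    let δ' : Derivation C⟮t⟯ K K := Derivation.mk'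
      { toFun := fun z => δ z
        map_add' := fun x y => map_add δ x y
        map_smul' := fun c x => by
          rw [RingHom.id_apply, Algebra.smul_def, Derivation.leibniz,
            IntermediateField.algebraMap_apply, h1 _ c.2, smul_zero, add_zero, smul_eq_mul,
            Algebra.smul_def, IntermediateField.algebraMap_apply] }
      (fun x y => δ.leibniz x y)
    ext z
    exact der_eq_zero δ' z
  have hne : D₀ t ≠ 0 := fun h => h0 (key D₀ h)
  refine ⟨D t / D₀ t, ?_⟩
  rw [← sub_eq_zero]
  refine key _ ?_
  rw [Derivation.sub_apply, Derivation.smul_apply, smul_eq_mul, div_mul_cancel₀ _ hne, sub_self]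

end Der

section Om

/-- all Hodge-Tate forms of `K` vanish -/
def OmZero (C : Type u) [NontriviallyNormedField C] (p : ℕ) (K : Type v) [Field K] [Algebra C K] :
    Prop :=
  ∀ (D : Derivation C K K) (f : ℕ → K), IsSys C p f → IsTheta p D f 0

/-- existence of all Hodge-Tate forms of `K` (G-HT) -/
def HasTheta (C : Type u) [NontriviallyNormedField C] (p : ℕ) (K : Type v) [Field K]
    [Algebra C K] : Prop :=
  ∀ (D : Derivation C K K) (f : ℕ → K), IsSys C p f → ∃ θ : K, IsTheta p D f θ

theorem isFF_of_cff {C : Type u} {K : Type v} [Field C] [Field K] [Algebra C K] [h : CFF C K] :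
    IsFF C K := h.ex

variable {C K C' K' : Type u} [NontriviallyNormedField C] [CharZero C] [NontriviallyNormedField C']
  [IsUltrametricDist C'] [CompleteSpace C'] [Field K] [Field K'] [Algebra C K]
  [Algebra C C'] [Algebra C K'] [Algebra K K'] [Algebra C' K'] [IsScalarTower C K K']
  [IsScalarTower C C' K'] [CFF C K] [CFF C' K']

/-- **G-OMBC**: if all Hodge-Tate forms of `K` vanish, so do those of the base change. -/
theorem OmZero.bc (hiso : ∀ c : C, ‖algebraMap C C' c‖ = ‖c‖) (hb : IsBC C K C' K') {p : ℕ}
    (hp : p ≠ 0) (hpC : ‖(p : C)‖ < 1) (h0 : OmZero C p K) (hT : HasTheta C' p K') :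
    OmZero C' p K' := by
  have : CharZero C' := charZero_of_injective_algebraMap (algebraMap C C').injective
  have : IsAlgClosed C' := CFF.ac K'
  intro D' f' hf'
  obtain ⟨D₀, hD₀⟩ := exists_der_ne_zero (isFF_of_cff (C := C) (K := K))
  obtain ⟨D₁, hD₁⟩ := hb.exists_derivation D₀
  have hD₁0 : D₁ ≠ 0 := by
    rintro rfl
    apply hD₀
    ext z
    have h1 := hD₁ z
    rw [Derivation.zero_apply] at h1
    exact (map_eq_zero _).1 h1.symm
  obtain ⟨x, hx⟩ := exists_smul_eq (isFF_of_cff (C := C') (K := K')) hD₁0 D'
  obtain ⟨f, g, hf, hg, hfg⟩ := hb.pull hp hf'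
  have hpp : ‖(p : C')‖ = ‖(p : C)‖ := by rw [← hiso (p : C), map_natCast]
  have hp0 : (p : K') ≠ 0 := by
    have : CharZero K' := charZero_of_injective_algebraMap (algebraMap C' K').injective
    exact_mod_cast hp
  -- `θ' = 0`
  obtain ⟨θ, hθ⟩ := hT D₁ f' hf'
  have hθ0 : θ = 0 := by
    obtain ⟨w, hw, A, hA0, hA⟩ := exists_bdd (isFF_of_cff (C := C') (K := K')) D₁
    let v : AbsoluteValue K ℝ := w.comp (algebraMap K K').injective
    have hv : IsNm C v := by
      refine ⟨fun a b => ?_, fun c => ?_⟩
      · change w (algebraMap K K' (a + b)) ≤ _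
        rw [map_add]
        exact hw.na _ _
      · change w (algebraMap K K' (algebraMap C K c)) = _
        rw [comm' (C' := C'), hw.const, hiso]
    obtain ⟨B, hB⟩ := h0 D₀ f hf v hv
    obtain ⟨B', hB'⟩ := hθ w hw
    have h1 : ∀ m, w (D₁ (f' m) / f' m) ≤ max B A * ‖(p : C')‖ ^ m := by
      intro m
      have hfm : algebraMap K K' (f m) ≠ 0 := by simpa using hf.ne m
      have e1 : D₁ (f' m) / f' m = algebraMap K K' (D₀ (f m) / f m) +
          (p : K') ^ m * (D₁ (g m) / g m) := by
        rw [hfg m, Derivation.leibniz, Derivation.leibniz_pow, hD₁, map_div₀]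
        simp only [smul_eq_mul, nsmul_eq_mul]
        have h2 : g m ^ p ^ m = g m ^ (p ^ m - 1) * g m := by
          rw [← pow_succ, Nat.sub_add_cancel (Nat.one_le_iff_ne_zero.2 (pow_ne_zero m hp))]
        have h3 := hg m
        rw [h2]
        push_cast
        field_simp
        ring
      rw [e1]
      refine (hw.na _ _).trans (max_le ?_ ?_)
      · have h4 := hB m
        rw [sub_zero] at h4
        refine h4.trans ?_
        rw [hpp]
        exact mul_le_mul_of_nonneg_right (le_max_left _ _) (by positivity)
      · have e2 : w ((p : K') ^ m) = ‖(p : C')‖ ^ m := by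
          rw [map_pow, ← map_natCast (algebraMap C' K') p, hw.const]
        rw [map_mul, e2, map_div₀, mul_comm]
        refine mul_le_mul_of_nonneg_right ?_ (by positivity)
        refine le_trans ?_ (le_max_right _ _)
        rw [div_le_iff₀ (w.pos (hg m))]
        exact hA _
    have h2 : ∀ m, w θ ≤ max (max B A) B' * ‖(p : C')‖ ^ m := by
      intro m
      have e3 : θ = D₁ (f' m) / f' m + -(D₁ (f' m) / f' m - θ) := by ring
      rw [e3]
      refine (hw.na _ _).trans (max_le ?_ ?_)
      · exact (h1 m).trans (mul_le_mul_of_nonneg_right (le_max_left _ _) (by positivity))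
      · rw [map_neg_eq_map]
        exact (hB' m).trans (mul_le_mul_of_nonneg_right (le_max_right _ _) (by positivity))
    have h3 : w θ ≤ 0 := by
      have h4 : Filter.Tendsto (fun m : ℕ => max (max B A) B' * ‖(p : C')‖ ^ m) Filter.atTop
          (nhds (max (max B A) B' * 0)) := by
        refine (tendsto_pow_atTop_nhds_zero_of_lt_one (norm_nonneg _) ?_).const_mul _
        rw [hpp]; exact hpC
      rw [mul_zero] at h4
      exact ge_of_tendsto' h4 h2
    exact (w.eq_zero).1 (le_antisymm h3 (w.nonneg _))
  rw [hθ0] at hθ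
  rw [hx]
  intro w hw
  obtain ⟨A, hA⟩ := hθ w hw
  refine ⟨w x * A, fun m => ?_⟩
  have e4 : (x • D₁) (f' m) / f' m - 0 = x * (D₁ (f' m) / f' m - 0) := by
    rw [Derivation.smul_apply, smul_eq_mul]
    ring
  rw [e4, map_mul, mul_assoc]
  exact mul_le_mul_of_nonneg_left (hA m) (w.nonneg _)

end Om

end P025H941
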